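import Vale.Agent.P199.K.Main

/-!
# Kurosh's problem for division rings: a counterexample

A division ring, finitely generated as an algebra over a central subfield over which every element
is algebraic, algebraic over its centre, and of infinite dimension over both.
-/

namespace Vale.Agent.Results.P199.KuroshFalse

theorem result :
    ∃ (D : Type) (_ : DivisionRing D) (k : Subfield D) (S : Finset D),
      (∀ x ∈ k, ∀ y : D, x * y = y * x) ∧
      Subring.closure ((k : Set D) ∪ (S : Set D)) = ⊤ ∧
      (∀ a : D, ∃ q : Polynomial D, q ≠ 0 ∧ (∀ j, q.coeff j ∈ k) ∧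
        ∑ j ∈ q.support, q.coeff j * a ^ j = 0) ∧
      (∀ T : Finset D, ∃ z : D, ∀ c : D → D, (∀ t, c t ∈ k) → ∑ t ∈ T, c t * t ≠ z) ∧
      Algebra.IsAlgebraic (Subring.center D) D ∧
      Algebra.adjoin (Subring.center D) (S : Set D) = ⊤ ∧
      ¬ Module.Finite (Subring.center D) D := by
  obtain ⟨D, inst, k, S, hk, hgen, halg, hZ, hadj, hinf⟩ := Vale.Agent.P199.K.goal
  refine ⟨D, inst, k, S, hk, hgen, halg, fun T => ?_, hZ, hadj, hinf⟩
  by_contra h
  push Not at h
  refine hinf ⟨T, eq_top_iff.2 fun z _ => ?_⟩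
  obtain ⟨c, hc, rfl⟩ := h z
  refine Submodule.sum_mem _ fun t ht => ?_
  exact Submodule.smul_mem _ (⟨c t, Subring.mem_center_iff.2 fun y => (hk _ (hc t) y).symm⟩ :
    Subring.center D) (Submodule.subset_span ht)

end Vale.Agent.Results.P199.KuroshFalse
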