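import Vale.Agent.P199.Centre

/-!
# Kurosh's problem: elements of degree at most three, and centres without counterexamples

For a division ring `D` algebraic over its centre `F`: a noncentral element of degree at most three
lies in a finite-dimensional noncommutative subalgebra, and `D = F` for the centres `F` described
in the second part.
-/

namespace Vale.Agent.Results.P199.LowDegreeElements

universe u v

open Polynomial

theorem result :
    ∀ (F : Type u) (D : Type v) [Field F] [DivisionRing D] [Algebra F D],
      (∀ x : D, (∀ y, x * y = y * x) → x ∈ Set.range (algebraMap F D)) →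
      (∀ x : D, IsAlgebraic F x) →
      (∀ a : D, a ∉ Set.range (algebraMap F D) → (minpoly F a).natDegree ≤ 3 →
        ∃ S : Subalgebra F D, a ∈ S ∧ FiniteDimensional F S ∧
          ∃ x ∈ S, ∃ y ∈ S, x * y ≠ y * x) ∧
      ((∀ (E : Type v) [DivisionRing E] [Algebra F E], FiniteDimensional F E →
          ∀ x y : E, x * y = y * x) →
        (∀ (K : Type u) [Field K] [Algebra F K], FiniteDimensional F K →
          1 < Module.finrank F K → ∃ t : K, t ∉ Set.range (algebraMap F K) ∧
            ((minpoly F t).natDegree ≤ 3 ∨
              ∃ s ∈ Algebra.adjoin F {t}, s ≠ t ∧ aeval s (minpoly F t) = 0)) →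
        ∀ x : D, x ∈ Set.range (algebraMap F D)) := by
  intro F D _ _ _ hF hA
  have hI : ∀ x : D, IsIntegral F x := fun x => (hA x).isIntegral
  refine ⟨fun a ha hd => ?_, fun hcomm hext => Vale.Agent.P199.eq_centre hI hF hcomm hext⟩
  obtain ⟨S, haS, hS, h⟩ := Vale.Agent.P199.inFiniteNoncomm_low hI hF ha hd
  exact ⟨S, haS, Module.Finite.iff_fg.2 hS, h⟩

end Vale.Agent.Results.P199.LowDegreeElements
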